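import Vale.Agent.P144O.Defs
import Vale.Agent.P144N.Nice

/-!
Star-shaped domains with an arbitrary centre.
-/

namespace Vale.Agent.P144O

open Filter Topology Set Vale.Agent.P144 Vale.Agent.P144Z Vale.Agent.P144N
open Vale.Agent.P144Z.U1 (sh mem_sh sh_sh sh_zero prod_sh cf_sh)
open Vale.Agent.P144.H170 (pt pt_fl_norm)
open Vale.Agent.P144Q.B (shr)

variable {J lam β Zσ Zε : ℝ} {V : Finset Site → ℝ} {b : Option (ℝ → Config)}

/-- The translation of finite sets. -/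
def shE (t : Site) : Finset Site ≃ Finset Site :=
  ⟨sh t, sh (-t), fun A => by rw [sh_sh, add_neg_cancel, sh_zero],
    fun A => by rw [sh_sh, neg_add_cancel, sh_zero]⟩

theorem energy_sh (hV : IsPotential V) (t : Site) {P Q : Finset Site → Prop}
    (h : ∀ A, Q (sh t A) ↔ P A) (σ : Config) :
    energy J lam V Q σ = energy J lam V P fun x => σ (x + t) := by
  unfold energy
  congr 1
  rw [← finsum_comp_equiv (shE t)]
  refine finsum_congr fun A => finsum_congr_Prop (propext (h A)) fun _ => ?_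
  have := cf_sh hV J lam t A
  unfold U1.cf at this
  show ((open Classical in if IsEdge (sh t A) then J else 0) + lam * V (sh t A)) *
    ∏ x ∈ sh t A, sp (σ x) = _
  rw [this, prod_sh]

theorem sh_sub {t : Site} {A Λ : Finset Site} : sh t A ⊆ sh t Λ ↔ A ⊆ Λ :=
  ⟨fun h x hx => by simpa using mem_sh.1 (h (mem_sh.2 (show x + t - t ∈ A by simpa using hx))),
    fun h _ hx => mem_sh.2 (h (mem_sh.1 hx))⟩

theorem expect_sh (t : Site) {H H' : Config → ℝ} (h : ∀ σ, H' σ = H fun x => σ (x + t))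
    (Λ : Finset Site) (c : Bool) (F : Config → ℝ) :
    P144.expect β H' (sh t Λ) (fun _ => c) (fun σ => F fun x => σ (x + t)) =
      P144.expect β H Λ (fun _ => c) F := by
  have e : ∀ g : Finset Site → ℝ, ∑ T ∈ (sh t Λ).powerset, g T = ∑ T ∈ Λ.powerset, g (sh t T) :=
    fun g => (Finset.sum_equiv (shE t) (fun T => by
      simp only [Finset.mem_powerset]
      exact sh_sub.symm) fun _ _ => rfl).symm
  have k : ∀ T, (fun x => P144.ext (sh t Λ) (fun _ => c) (sh t T) (x + t)) =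
      P144.ext Λ (fun _ => c) T := fun T => by
    funext x
    simp only [P144.ext, mem_sh, add_sub_cancel_right]
  unfold P144.expect
  rw [e, e fun T => Real.exp (-β * H' (P144.ext (sh t Λ) (fun _ => c) T))]
  simp only [h, k]

theorem gibbs_sh (hV : IsPotential V) (hb : StdBC b) (a a' : ℝ) (t : Site) (Λ : Finset Site)
    (F : Config → ℝ) : gibbs J lam V β (b.map fun η => η a) (sh t Λ)
      (fun σ => F fun x => σ (x + t)) = gibbs J lam V β (b.map fun η => η a') Λ F := by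
  have m : ∀ A, (sh t A ∩ sh t Λ).Nonempty ↔ (A ∩ Λ).Nonempty := fun A => by
    rw [U1.meets_iff]
    simp only [mem_sh, add_sub_cancel_right]
    exact ⟨fun ⟨y, h⟩ => ⟨y, Finset.mem_inter.2 h⟩, fun ⟨y, h⟩ => ⟨y, Finset.mem_inter.1 h⟩⟩
  rcases hb with rfl | rfl | rfl <;> simp only [Option.map_none, Option.map_some, gibbs]
  · exact expect_sh (β := β) t (H := energy J lam V fun A => A ⊆ Λ)
      (H' := energy J lam V fun A => A ⊆ sh t Λ) (energy_sh hV t fun _ => sh_sub) Λ true F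
  · exact expect_sh (β := β) t (H := energy J lam V fun A => (A ∩ Λ).Nonempty)
      (H' := energy J lam V fun A => (A ∩ sh t Λ).Nonempty) (energy_sh hV t m) Λ true F
  · exact expect_sh (β := β) t (H := energy J lam V fun A => (A ∩ Λ).Nonempty)
      (H' := energy J lam V fun A => (A ∩ sh t Λ).Nonempty) (energy_sh hV t m) Λ false F

/-- The image of `D` under the homothety of centre `z₀` and ratio `s`. -/
def hom (z₀ : ℂ) (s : ℝ) (D : Set ℂ) : Set ℂ := (fun z => z₀ + (z - z₀) / (s : ℂ)) ⁻¹' D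

theorem hom_cont (z₀ : ℂ) (s : ℝ) : Continuous fun z : ℂ => z₀ + (z - z₀) / (s : ℂ) := by fun_prop

theorem StarAt.inside {z₀ : ℂ} {D : Set ℂ} (h : StarAt z₀ D) {s t : ℝ} (hs : 0 < s) (hst : s < t) :
    Inside (hom z₀ s D) (hom z₀ t D) := by
  have ht := hs.trans hst
  have s0 : (s : ℂ) ≠ 0 := by exact_mod_cast hs.ne'
  refine ⟨?_, fun z hz => ?_⟩
  · obtain ⟨T, hT⟩ := h.2.1.exists_norm_le
    refine isBounded_iff_forall_norm_le.2 ⟨(T + ‖z₀‖) * t + ‖z₀‖, fun z hz => ?_⟩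
    have h1 := norm_sub_le (z₀ + (z - z₀) / (t : ℂ)) z₀
    rw [add_sub_cancel_left, norm_div, Complex.norm_real, Real.norm_of_nonneg ht.le,
      div_le_iff₀ ht] at h1
    have h2 := mul_le_mul_of_nonneg_right (add_le_add (hT _ hz) (le_refl ‖z₀‖)) ht.le
    have h3 := norm_add_le (z - z₀) z₀
    rw [sub_add_cancel] at h3
    linarith
  rw [hom, (h.1.preimage (hom_cont z₀ t)).interior_eq]
  have := h.2.2 (s / t) (by positivity) ((div_lt_one ht).2 hst) _
    ((hom_cont z₀ s).closure_preimage_subset _ hz)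
  have e : z₀ + ((s / t : ℝ) : ℂ) * (z₀ + (z - z₀) / s - z₀) = z₀ + (z - z₀) / t := by
    push_cast
    field_simp
    ring
  rwa [e] at this

/-- The correlation in the lattice translate of the dilated domain. -/
theorem corr_mv (hb : StdBC b) {s a : ℝ} (hs : 0 < s) (ha : 0 < a) {D : Set ℂ} (k : Site) {n : ℕ}
    (x : Fin n → ℂ) : corr a (gibbs J 0 (fun _ => 0) (Kc / J) (b.map fun η => η a)
      (sh k (disc D (a / s)))) ⟨n, 0, x, ![], ![]⟩ = (s ^ (-(1 / 8) : ℝ)) ^ n *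
      corr (a / s) (crit J D b (a / s)) ⟨n, 0, fun i => (x i - pt a k) / s, ![], ![]⟩ := by
  have e : ∀ i, fl (a / s) ((x i - pt a k) / s) + k = fl a (x i) := fun i => by
    rw [P144Q.B.fl_div hs.ne']
    have : ∀ (u : ℝ) (m : ℤ), ⌊(u - a * m) / a⌋ + m = ⌊u / a⌋ := fun u m => by
      rw [sub_div, mul_div_cancel_left₀ _ ha.ne', Int.floor_sub_intCast, sub_add_cancel]
    exact Prod.ext (this _ _) (this _ _)
  have e1 : a ^ (-(1 / 8) : ℝ) = s ^ (-(1 / 8) : ℝ) * (a / s) ^ (-(1 / 8) : ℝ) := by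
    rw [← Real.mul_rpow hs.le (div_pos ha hs).le, mul_div_cancel₀ _ hs.ne']
  simp only [crit, inDom, corr_spin]
  rw [← gibbs_sh pot0 hb a (a / s) k, e1, mul_pow, mul_assoc]
  simp only [e]

theorem ev_in {K U : Set ℂ} (h : Inside K U) : ∃ δ > (0 : ℝ), ∀ z ∈ K, ∀ w, ‖w - z‖ ≤ δ → w ∈ U := by
  obtain ⟨δ, hδ, hs⟩ := (h.1.subset (subset_closure.trans
    (h.2.trans interior_subset))).isCompact_closure.exists_cthickening_subset_open
      isOpen_interior h.2
  exact ⟨δ, hδ, fun z hz w hw => interior_subset (hs (Metric.mem_cthickening_of_dist_le w z _ _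
    (subset_closure hz) (by rwa [dist_eq_norm])))⟩

theorem star_at (h : Dat J lam β Zσ Zε V b) {z₀ : ℂ} {D : Set ℂ} (hD : StarAt z₀ D) {n : ℕ}
    {x : Fin n → ℂ} (hp : Good D ⟨n, 0, x, ![], ![]⟩) {c : ℝ}
    (hc : Tendsto (fun q : ℝ × (Fin n → ℂ) => corr q.1 (crit J D b q.1) ⟨n, 0, q.2, ![], ![]⟩)
      (𝓝[>] 0 ×ˢ 𝓝 x) (𝓝 c)) :
    Lim (inDom J lam V β D b) ⟨n, 0, x, ![], ![]⟩ (Zσ ^ n * c) := by
  refine h.stable (p := ⟨n, 0, x, ![], ![]⟩) rfl fun ε hε => ?_
  obtain ⟨σ, hσ, H⟩ := mono_f h.hb n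
  replace H := H ⟨n, 0, x, ![], ![]⟩ rfl rfl J 0 _ _ pot0 (kc_nonneg h.hJ) (cf0 h.hJ)
  have e1 : hom z₀ 1 D = D := by ext z; simp [hom]
  set G : ℝ → ℝ → ℝ := fun s a => corr a (gibbs J 0 (fun _ => 0) (Kc / J) (b.map fun η => η a)
    (sh (fl a (z₀ * (1 - s))) (disc D (a / s)))) ⟨n, 0, x, ![], ![]⟩ with hG
  have key : ∀ᶠ s : ℝ in 𝓝 1, 0 < s ∧ (∀ i, z₀ + (x i - z₀) / (s : ℂ) ∈ D) ∧
      ∀ᶠ a in 𝓝[>] (0 : ℝ), |G s a - c| ≤ ε := by
    have cf : ContinuousAt (fun q : ℝ × ℝ => (q.1 ^ (-(1 / 8) : ℝ)) ^ n * q.2) (1, c) :=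
      (((Real.continuousAt_rpow_const _ _ (Or.inl one_ne_zero)).comp_of_eq continuousAt_fst
        rfl).pow _).mul continuousAt_snd
    have c1 := cf.eventually (Metric.closedBall_mem_nhds _ hε)
    simp only [Real.one_rpow, one_pow, one_mul, nhds_prod_eq] at c1
    obtain ⟨A, hA, B, hB, c1⟩ := eventually_prod_iff.1 c1
    obtain ⟨A', hA', B', hB', c2⟩ := eventually_prod_iff.1 (hc.eventually hB)
    have ct : ContinuousAt (fun s : ℝ => fun i => z₀ + (x i - z₀) / (s : ℂ)) 1 :=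
      continuousAt_pi.2 fun i => continuousAt_const.add (continuousAt_const.div
        Complex.continuous_ofReal.continuousAt (by simp))
    have ct1 : Tendsto (fun s : ℝ => fun i => z₀ + (x i - z₀) / (s : ℂ)) (𝓝 1) (𝓝 x) := by
      simpa using ct.tendsto
    filter_upwards [hA, lt_mem_nhds (zero_lt_one' ℝ), ct1.eventually (eventually_eventually_nhds.2 hB'),
      eventually_all.2 fun i => ((tendsto_pi_nhds.1 ct1 i).eventually
        (hD.1.mem_nhds (hp.2.1 i)))] with s s1 s2 s3 s4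
    refine ⟨s2, s4, ?_⟩
    have s0 : (s : ℂ) ≠ 0 := by exact_mod_cast s2.ne'
    have l : Tendsto (fun a : ℝ => fun i => (x i - pt a (fl a (z₀ * (1 - s)))) / (s : ℂ)) (𝓝[>] 0)
        (𝓝 fun i => z₀ + (x i - z₀) / (s : ℂ)) := tendsto_pi_nhds.2 fun i => by
      have := ((H365.pt_fl_lim (a := fun a : ℝ => a) tendsto_id
        (tendsto_const_nhds (x := z₀ * (1 - s)))).const_sub (x i)).div_const (s : ℂ)
      rwa [show (x i - z₀ * (1 - s)) / (s : ℂ) = z₀ + (x i - z₀) / s by field_simp; ring] at this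
    filter_upwards [self_mem_nhdsWithin, (P144Q.B.div_lim s2).eventually hA', l.eventually s3]
      with a ha a1 a2
    simp only [hG]
    rw [corr_mv h.hb s2 ha]
    exact c1 s1 (c2 a1 a2)
  have mem : ∀ s > (0 : ℝ), ∀ a > (0 : ℝ), ∀ y, y ∈ sh (fl a (z₀ * (1 - s))) (disc D (a / s)) ↔
      pt a y + (z₀ * (1 - s) - pt a (fl a (z₀ * (1 - s)))) ∈ hom z₀ s D := fun s hs a ha y => by
    have s0 : (s : ℂ) ≠ 0 := by exact_mod_cast hs.ne'
    rw [mem_sh, mem_disc hD.2.1 (div_pos ha hs), hom, mem_preimage]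
    generalize fl a (z₀ * (1 - s)) = k
    have e : (⟨a / s * (y - k).1, a / s * (y - k).2⟩ : ℂ) = (pt a y - pt a k) / s := by
      apply Complex.ext
      · simp only [pt, Complex.div_ofReal_re, Complex.sub_re, Prod.fst_sub]; push_cast; ring
      · simp only [pt, Complex.div_ofReal_im, Complex.sub_im, Prod.snd_sub]; push_cast; ring
    rw [e, show z₀ + (pt a y + (z₀ * (1 - s) - pt a k) - z₀) / (s : ℂ) = (pt a y - pt a k) / s by
      field_simp; ring]
  obtain ⟨u, ⟨u0, u1, u2⟩, u3⟩ := ((key.filter_mono (nhdsWithin_le_nhds (s := Iio 1))).and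
    self_mem_nhdsWithin).exists
  obtain ⟨v, ⟨v0, -, v2⟩, v3⟩ := ((key.filter_mono (nhdsWithin_le_nhds (s := Ioi 1))).and
    self_mem_nhdsWithin).exists
  have u3 : u < 1 := u3
  have v3 : 1 < v := v3
  have i0 := hD.inside u0 (show u < (u + 1) / 2 by linarith)
  have i1 := hD.inside (show 0 < (u + 1) / 2 by linarith) (show (u + 1) / 2 < 1 by linarith)
  have i2 := hD.inside one_pos (show 1 < (v + 1) / 2 by linarith)
  have i3 := hD.inside (show 0 < (v + 1) / 2 by linarith) (show (v + 1) / 2 < v by linarith)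
  rw [e1] at i1 i2
  have ou : IsOpen (hom z₀ u D) := hD.1.preimage (hom_cont _ _)
  refine ⟨_, _, i1, i2, ⟨hp.1, fun i => i0.2 (subset_closure (u1 i)), fun k => k.elim0,
    hp.2.2.2⟩, ?_⟩
  obtain ⟨δ, hδ, d1⟩ := ev_in i0
  obtain ⟨δ', hδ', d2⟩ := ev_in i3
  have near : ∀ᶠ a in 𝓝[>] (0 : ℝ), ∀ i, ∀ w, ‖w - x i‖ ≤ 4 * a → w ∈ hom z₀ u D :=
    eventually_all.2 fun i => by
      obtain ⟨r, hr, h⟩ := Metric.mem_nhds_iff.1 (ou.mem_nhds (u1 i))
      filter_upwards [Ioo_mem_nhdsGT (show (0 : ℝ) < r / 4 by positivity)] with a ha w hw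
      exact h (by rw [Metric.mem_ball, dist_eq_norm]; linarith [ha.2])
  filter_upwards [u2, v2, near, Ioo_mem_nhdsGT (half_pos hδ), Ioo_mem_nhdsGT (half_pos hδ')]
    with a a1 a2 a3 ⟨ha, a4⟩ ⟨_, a5⟩
  have n1 := pt_fl_norm ha (z₀ * (1 - u))
  have n2 := pt_fl_norm ha (z₀ * (1 - v))
  have s1 : sh (fl a (z₀ * (1 - u))) (disc D (a / u)) ⊆ disc (hom z₀ ((u + 1) / 2) D) a :=
    fun y hy => (mem_disc i0.1 ha y).2 (d1 _ ((mem u u0 a ha y).1 hy) (pt a y) (by
      rw [← sub_sub, sub_self, zero_sub, norm_neg, norm_sub_rev]; linarith))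
  have s2 : disc (hom z₀ ((u + 1) / 2) D) a ⊆ disc (hom z₀ ((v + 1) / 2) D) a :=
    disc_sub ((subset_closure.trans (i1.2.trans interior_subset)).trans
      (subset_closure.trans (i2.2.trans interior_subset))) i2.1 ha
  have s3 : disc (hom z₀ ((v + 1) / 2) D) a ⊆ sh (fl a (z₀ * (1 - v))) (disc D (a / v)) :=
    fun y hy => (mem v v0 a ha y).2 (d2 _ ((mem_disc i2.1 ha y).1 hy) _ (by
      show ‖pt a y + _ - pt a y‖ ≤ _
      rw [add_sub_cancel_left, norm_sub_rev]; linarith))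
  have hx : ∀ i, fl a (x i) ∈ sh (fl a (z₀ * (1 - u))) (disc D (a / u)) := fun i =>
    (mem u u0 a ha _).2 (a3 i _ (by
      rw [add_sub_right_comm]
      refine (norm_add_le _ _).trans ?_
      rw [norm_sub_rev (z₀ * _)]
      linarith [pt_fl_norm ha (x i)]))
  have m1 := H a ha _ _ s1 hx
  have m2 := H a ha _ _ s2 fun i => s1 (hx i)
  have m3 := H a ha _ _ s3 fun i => s2 (s1 (hx i))
  simp only [hG, abs_le] at a1 a2
  simp only [crit, inDom, abs_le]
  rcases hσ with rfl | rfl <;> refine ⟨⟨?_, ?_⟩, ?_, ?_⟩ <;> linarith [a1.1, a1.2, a2.1, a2.2]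

end Vale.Agent.P144O
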