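import Vale.Agent.P144.Defs

/-!
Sets that are star-shaped with respect to an arbitrary point.
-/

namespace Vale.Agent.P144O

/-- Bounded open sets that are strictly star-shaped with respect to `z₀`. -/
def StarAt (z₀ : ℂ) (D : Set ℂ) : Prop :=
  IsOpen D ∧ Bornology.IsBounded D ∧
    ∀ t : ℝ, 0 < t → t < 1 → ∀ z ∈ closure D, z₀ + t * (z - z₀) ∈ D

end Vale.Agent.P144O
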